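import Vale.Agent.P281.H592.SG3.Stat
import Vale.Agent.P281.H740.TW.Level
import Vale.Agent.P281.H383.Gen.Ext
import Vale.Agent.P281.H64.Gen.Spec

/-!
# P281: the very general fibres are manifolds
-/

open Set Filter Metric Vale.Agent.P281 Vale.Agent.P281.H713.TZ.S
open Vale.Agent.P281.H64.Thin (IsThinSet)
open Vale.Agent.P281.H64.Gen (CritStmt)
open Vale.Agent.P281.H64.Z
open scoped Manifold ContDiff Topology

set_option linter.all false

noncomputable section

namespace Vale.Agent.P281.H592.SG3

section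
variable {p d : ℕ} {X Y : Type} [TopologicalSpace X] [ChartedSpace (Cm (p + d)) X]
  [TopologicalSpace Y] [ChartedSpace (Cm p) Y] {f : X → Y} {Δ : Set X → ℝ}

/-- the very general fibres are manifolds -/
theorem exists_fibre (crit : CritStmt) (hf : Fibn (p + d) p f Δ) : ∃ H : ℕ → Set Y, Thins p H ∧
    ∀ y, (∀ k, y ∉ H k) → ∃ (F : Type) (_ : TopologicalSpace F) (_ : T2Space F)
      (_ : ChartedSpace (Cm d) F) (i : F → X), Fbr (p + d) d f y i ∧ Function.Injective i := by
  have := hf.manifold.1
  have := hf.manifold.2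
  have := hf.hausdorff.1
  have := hf.hausdorff.2
  have := hf.compact
  obtain ⟨S, hS, hP⟩ := crit (p + d) p X Y f hf.hol hf.fibres
  have hP' := hP S subset_rfl hS.1
  obtain ⟨H, hH, hsub⟩ := hS.2
  refine ⟨H, hH, fun y hy => ?_⟩
  have hyS : y ∉ S := by
    intro h1
    obtain ⟨k, hk⟩ := mem_iUnion.1 (hsub h1)
    exact hy k hk
  have hn : Module.finrank ℂ (Cm (p + d)) =
      Module.finrank ℂ (Cm p) + Module.finrank ℂ (Cm d) := by
    simp only [Module.finrank_fin_fun]
  obtain ⟨cs, hman, hval, hvimm⟩ := H740.exists_level (E₀ := Cm d) hn hf.hol (z := y)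
    fun x hx => hP'.submersive x (by rw [hx]; exact hyS)
  have hcomp : CompactSpace (f ⁻¹' {y}) :=
    isCompact_iff_compactSpace.1 (isClosed_singleton.preimage hf.hol.continuous).isCompact
  have hconn : ConnectedSpace (f ⁻¹' {y}) := isConnected_iff_connectedSpace.1 (hf.fibres y)
  exact ⟨f ⁻¹' {y}, inferInstance, inferInstance, cs, Subtype.val,
    ⟨hcomp, hconn, hman, hval, hvimm, fun t => t.2⟩, Subtype.val_injective⟩

theorem exists_off (hf : Fibn (p + d) p f Δ) {H : ℕ → Set Y} (hH : Thins p H) :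
    ∃ y, ∀ k, y ∉ H k := by
  have := hf.compact
  have := hf.connected
  have := hf.hausdorff.2
  have := hf.manifold.2
  have hsurj : Function.Surjective f := fun y => (hf.fibres y).nonempty
  have : CompactSpace Y := hsurj.compactSpace hf.hol.continuous
  have : Nonempty Y := ⟨f (Classical.arbitrary X)⟩
  have h1 : Dense (⋂ j, (H j)ᶜ) := dense_iInter_of_isOpen_nat (fun j => (hH j).1.isOpen_compl)
    fun j => H383.Gen.dense_compl_thin (hH j)
  obtain ⟨y, hy⟩ := h1.nonempty
  exact ⟨y, fun j => mem_iInter.1 hy j⟩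

end

end Vale.Agent.P281.H592.SG3
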