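import Vale.Agent.P281.H592.SG3.Core
import Vale.Agent.P281.H592.SG3.Br
import Vale.Agent.P281.H592.TG.FamHTFin
import Vale.Agent.P281.H969.SG2.Fin

/-!
# P281: fibrations dominated by generically finite maps, with the class `T × H`, the theorem
-/

open Vale.Agent.P281 Vale.Agent.P281.H713.TZ.S
open Vale.Agent.P281.H64.Z
open scoped Manifold ContDiff Topology

noncomputable section

namespace Vale.Agent.P281.H592.SG3

theorem famE : FamEStmt := H969.SG2.famE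

theorem famUD : FamUDStmt := H969.SG2.famUD

theorem famH : FamHStmt := H969.SG2.famH

theorem famHT : FamHTStmt := by
  intro p d X Y _ _ _ _ _ _ f Δ hd h hw
  obtain ⟨H, hH, hm⟩ := H592.TG.famHT hd h hw
  refine ⟨H, hH, fun y hy F _ _ _ i hi ht => ?_⟩
  have := hi.manifold
  exact hm y hy F i hi (isTH_of ht)

/-- **the theorem** -/
theorem main {p d r : ℕ}
    (hd : 0 < d) {X₁ Y₁ X Y : Type} [TopologicalSpace X₁] [ChartedSpace (Cm (p + d)) X₁]
    [TopologicalSpace Y₁] [ChartedSpace (Cm p) Y₁] [TopologicalSpace X]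
    [ChartedSpace (Cm (p + d)) X] [TopologicalSpace Y] [ChartedSpace (Cm p) Y]
    (f₁ : X₁ → Y₁) (Δ₁ : Set X₁ → ℝ) (f : X → Y) (Δ : Set X → ℝ)
    (h₁ : Fibn (p + d) p f₁ Δ₁) (h : Fibn (p + d) p f Δ)
    (hdom : Dominates (p + d) p d f₁ Δ₁ f Δ r) (hcls : Cls (p + d) p d f₁ Δ₁ r) :
    AddLe (p + d) p f Δ ((r : ℕ∞) : WithBot ℕ∞) ∧ ForAll (p + d) p d f fun F _ _ i =>
      kR (p + d) d i Δ ≤ ((r : ℕ∞) : WithBot ℕ∞) → AddLe (p + d) p f Δ (kR (p + d) d i Δ) :=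
  main_of (H364.crit H150.Gen.img) H969.SG2.first H969.SG2.tgf famE famUD famH famHT hd f₁ Δ₁ f Δ
    h₁ h hdom hcls

end Vale.Agent.P281.H592.SG3
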